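import Vale.Agent.P263B15.Rows

/-!
# P263B: the evaluation map on the suspension of the loop space
-/

open Topology Set OnePoint Filter

namespace Vale.Agent.P263B96

open Vale.Agent.P246.T Vale.Agent.P246.T.FM Vale.Agent.P263.AD.Freu Vale.Agent.P263B15
open Vale.Agent.P263.T0.Ball (rho rho_coe rho_infty rho_nonneg continuous_rho)

variable {Z : Type} [TopologicalSpace Z] (z₀ : Z)

/-- the suspension of the loop space -/
abbrev SL : Type :=
  Su ((ContinuousLinearMap.id ℝ ℝ).comp (ContinuousLinearMap.fst ℝ ℝ ℝ)) (kL z₀)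

/-- the time -/
noncomputable def tm (x : OnePoint (ℝ × ℝ)) : I := x.elim 0 fun v => cl ((v.2 + 1) / 2)

/-- the loop -/
def lp (p : SL z₀) : Lp z₀ := Option.getD p.1.2 (kL z₀)

/-- the evaluation, as a function -/
noncomputable def evF (p : SL z₀) : Z := (lp z₀ p).1.1 (tm p.1.1)

theorem evF_of_lt {p : SL z₀} (h : rho p.1.1 < 1 / 2) : evF z₀ p = z₀ := by
  rcases Su.cases p with rfl | ⟨e, k, he, rfl⟩
  · rfl
  · change k.1.1 (cl ((e.2 + 1) / 2)) = z₀
    rcases he.2 with j | rfl
    · have j : e.1 = 0 := j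
      have h' : (1 + ‖e‖)⁻¹ < 1 / 2 := h
      rw [Prod.norm_def, j, norm_zero, max_eq_right (norm_nonneg _), one_div,
        inv_lt_inv₀ (by positivity) two_pos, Real.norm_eq_abs] at h'
      rcases abs_cases e.2 with a | a
      · rw [cl_of_one_le (by linarith)]
        exact k.2
      · rw [cl_of_nonpos (by linarith)]
        exact k.1.2
    · rfl

theorem continuous_evF : Continuous (evF z₀) := by
  rw [continuous_iff_continuousAt]
  intro p
  by_cases hp : p.1.1 = ∞
  · have o : IsOpen {p : SL z₀ | rho p.1.1 < 1 / 2} :=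
      isOpen_lt (continuous_rho.comp Su.continuous_fst) continuous_const
    have m : rho p.1.1 < 1 / 2 := by rw [hp, rho_infty]; exact one_half_pos
    refine (continuousAt_const (y := z₀)).congr ?_
    filter_upwards [o.mem_nhds m] with y hy using (evF_of_lt z₀ hy).symm
  · have a : ContinuousAt (lp z₀) p := by
      refine Ext.isOpenEmbedding_of.isInducing.continuousAt_iff.2
        (Su.continuous_snd.continuousAt.congr ?_)
      filter_upwards [(isOpen_compl_singleton.preimage Su.continuous_fst).mem_nhds hp] with y hy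
      rcases Su.cases y with rfl | ⟨e, k, he, rfl⟩
      · exact absurd rfl hy
      · rfl
    have b : ContinuousAt (fun p : SL z₀ => tm p.1.1) p := by
      refine ContinuousAt.comp (g := tm) (f := fun p : SL z₀ => p.1.1) ?_
        Su.continuous_fst.continuousAt
      obtain ⟨v, hv⟩ := OnePoint.ne_infty_iff_exists.1 hp
      rw [← hv, OnePoint.continuousAt_coe]
      exact (continuous_cl.comp (by fun_prop : Continuous fun v : ℝ × ℝ =>
        (v.2 + 1) / 2)).continuousAt
    have c : Continuous fun q : Lp z₀ × I => q.1.1.1 q.2 :=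
      continuous_pp (continuous_subtype_val.comp continuous_fst) continuous_snd
    exact c.continuousAt.comp (f := fun p : SL z₀ => (lp z₀ p, tm p.1.1)) (a.prodMk b)

/-- the change of time -/
noncomputable def tc : C(I, I) :=
  ⟨fun t => cl (((2 * (t : ℝ) - 1) / max (1 / 2) (1 - |2 * (t : ℝ) - 1|) + 1) / 2),
    continuous_cl.comp (Continuous.div_const (Continuous.add (Continuous.div (by fun_prop)
      (by fun_prop) fun t => (lt_max_of_lt_left one_half_pos).ne') continuous_const) _)⟩

theorem tc_eq {t : I} {τ : ℝ} (h : ps t = (τ : OnePoint ℝ)) : cl ((τ + 1) / 2) = tc t := by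
  change dv (2 * (t : ℝ) - 1, 1 - |2 * (t : ℝ) - 1|) = _ at h
  change _ = cl (((2 * (t : ℝ) - 1) / max (1 / 2) (1 - |2 * (t : ℝ) - 1|) + 1) / 2)
  have h0 := t.2.1
  have h1 := t.2.2
  generalize hu : 2 * (t : ℝ) - 1 = u at h ⊢
  have d : 1 - |u| ≠ 0 := fun d => OnePoint.infty_ne_coe τ (by rw [← h, d, dv_zero])
  have p : 0 < 1 - |u| := lt_of_le_of_ne (sub_nonneg.2 (abs_le.2 ⟨by linarith, by linarith⟩)) d.symm
  have e : τ * (1 - |u|) = u := by
    rw [← OnePoint.coe_injective ((dv_of_ne d).symm.trans h), smul_eq_mul]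
    field_simp
  rcases le_total (1 / 2) (1 - |u|) with k | k
  · rw [max_eq_right k, eq_div_of_mul_eq d e]
  · rw [max_eq_left k]
    rcases abs_cases u with a | a
    · rw [a.1] at e k p
      rw [cl_of_one_le (by nlinarith), cl_of_one_le (by linarith)]
    · rw [a.1] at e k p
      rw [cl_of_nonpos (by nlinarith), cl_of_nonpos (by linarith)]

theorem ev : EV := fun _ _ z₀ =>
  ⟨⟨evF z₀, continuous_evF z₀⟩, tc, cl_of_nonpos (by norm_num), cl_of_one_le (by norm_num), rfl,
    fun _ _ _ k _ h => congrArg k.1.1 (tc_eq h)⟩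

end Vale.Agent.P263B96
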