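import Vale.Agent.P263B15.Rows

/-!
# P263B: the space with a whisker is homotopy equivalent to the space
-/

open Topology Set OnePoint Filter

set_option linter.unusedSectionVars false

namespace Vale.Agent.P263B96

open Vale.Agent.P246.T Vale.Agent.P246.T.FM Vale.Agent.P263.AD.Freu Vale.Agent.P263B15
open Vale.Agent.P263.T0.Ball (rho rho_coe rho_infty rho_nonneg continuous_rho)

variable {K : Type} [TopologicalSpace K] (k₀ : K)

/-- the space with a whisker -/
abbrev W : Type := Su (ContinuousLinearMap.id ℝ ℝ) k₀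

/-- the retraction, as a function -/
def retF (p : W k₀) : K := Option.getD p.1.2 k₀

theorem retF_inf : retF k₀ (Su.inf _ k₀) = k₀ := rfl

theorem retF_mk (e : ℝ) (k : K) (h) : retF k₀ (Su.mk _ k₀ e k h) = k := rfl

theorem retF_of_lt {p : W k₀} (h : rho p.1.1 < 1) : retF k₀ p = k₀ := by
  rcases Su.cases p with rfl | ⟨e, k, he, rfl⟩
  · rfl
  · refine he.2.resolve_left fun j => ?_
    have : e = 0 := j
    subst this
    have h' : rho (OnePoint.some (0 : ℝ)) < 1 := h
    rw [rho_coe] at h'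
    simp at h'

theorem continuous_retF : Continuous (retF k₀) := by
  rw [continuous_iff_continuousAt]
  intro p
  by_cases hp : p.1.1 = ∞
  · have o : IsOpen {p : W k₀ | rho p.1.1 < 1} :=
      isOpen_lt (continuous_rho.comp Su.continuous_fst) continuous_const
    have m : rho p.1.1 < 1 := by rw [hp, rho_infty]; exact one_pos
    refine (continuousAt_const (y := k₀)).congr ?_
    filter_upwards [o.mem_nhds m] with y hy using (retF_of_lt k₀ hy).symm
  · refine Ext.isOpenEmbedding_of.isInducing.continuousAt_iff.2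
      (Su.continuous_snd.continuousAt.congr ?_)
    filter_upwards [(isOpen_compl_singleton.preimage Su.continuous_fst).mem_nhds hp] with y hy
    rcases Su.cases y with rfl | ⟨e, k, he, rfl⟩
    · exact absurd rfl hy
    · rfl

/-- the retraction -/
def ret : C(W k₀, K) := ⟨retF k₀, continuous_retF k₀⟩

/-- the inclusion -/
noncomputable def inc : C(K, W k₀) :=
  ⟨fun k => Su.mk _ k₀ 0 k ⟨le_rfl, Or.inl rfl⟩,
    Su.continuous_iff.2 ⟨continuous_const, Ext.continuous_of⟩⟩

theorem ret_inc (k : K) : ret k₀ (inc k₀ k) = k := rfl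

/-- the height -/
noncomputable def ht (q : I × W k₀) : ℝ := (q.1 : ℝ) * (1 - rho q.2.1.1)

theorem continuous_ht : Continuous (ht k₀) :=
  (continuous_subtype_val.comp continuous_fst).mul (continuous_const.sub
    (continuous_rho.comp (Su.continuous_fst.comp continuous_snd)))

theorem rho_le (x : OnePoint ℝ) : rho x ≤ 1 := by
  induction x using OnePoint.rec with
  | infty => rw [rho_infty]; exact zero_le_one
  | coe e => rw [rho_coe]; exact inv_le_one_of_one_le₀ (by linarith [norm_nonneg e])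

theorem ht_mem (q : I × W k₀) : 0 ≤ ht k₀ q ∧ ht k₀ q ≤ 1 :=
  ⟨mul_nonneg q.1.2.1 (sub_nonneg.2 (rho_le _)), mul_le_one₀ q.1.2.2 (sub_nonneg.2 (rho_le _))
    (by linarith [rho_nonneg q.2.1.1])⟩

/-- the first coordinate of the homotopy -/
noncomputable def wd (q : I × W k₀) : OnePoint ℝ :=
  dv (ht k₀ q, 1 - ht k₀ q)

theorem continuous_wd : Continuous (wd k₀) := by
  rw [continuous_iff_continuousAt]
  intro q
  have := continuous_ht k₀
  refine ContinuousAt.comp (f := fun q => (ht k₀ q, 1 - ht k₀ q))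
    (continuousAt_dv ?_) (by fun_prop)
  by_cases h : ht k₀ q = 0
  · exact Or.inr (by simp [h])
  · exact Or.inl h

/-- the homotopy, as a function -/
noncomputable def hF (q : I × W k₀) : W k₀ :=
  ⟨(wd k₀ q, Ext.cut {q | wd k₀ q ≠ ∞} (fun q => Ext.of (retF k₀ q.2)) q), by
    refine ⟨⟨fun h => Ext.cut_of_notMem (S := {q | wd k₀ q ≠ ∞})
      (κ := fun q => Ext.of (retF k₀ q.2)) (not_not.2 h), fun h => ?_⟩, fun e k h1 h2 => ?_⟩
    · by_contra j
      exact Ext.of_ne _ ((Ext.cut_of_mem (S := {q | wd k₀ q ≠ ∞})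
        (κ := fun q => Ext.of (retF k₀ q.2)) j).symm.trans h)
    · have j : wd k₀ q ≠ ∞ := fun j => OnePoint.coe_ne_infty e (h1.symm.trans j)
      have hk : retF k₀ q.2 = k :=
        Ext.of_inj ((Ext.cut_of_mem (S := {q | wd k₀ q ≠ ∞})
          (κ := fun q => Ext.of (retF k₀ q.2)) j).symm.trans h2)
      have d : 1 - ht k₀ q ≠ 0 := fun d => j (by rw [wd, d, dv_zero])
      have he : e = (1 - ht k₀ q)⁻¹ * ht k₀ q :=
        (OnePoint.coe_injective ((dv_of_ne d).symm.trans h1)).symm
      obtain ⟨a, b⟩ := ht_mem k₀ q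
      refine ⟨he.ge.trans' (mul_nonneg (inv_nonneg.2 (sub_nonneg.2 b)) a), ?_⟩
      rcases (rho_le q.2.1.1).eq_or_lt with c | c
      · refine Or.inl (he.trans ?_)
        rw [ht, c, sub_self, mul_zero, mul_zero]
      · exact Or.inr (hk.symm.trans (retF_of_lt k₀ c))⟩

theorem continuous_hF : Continuous (hF k₀) :=
  Su.continuous_iff.2 ⟨continuous_wd k₀, Ext.continuous_cut
    (isOpen_compl_singleton.preimage (continuous_wd k₀))
    (Ext.continuous_of.comp ((continuous_retF k₀).comp continuous_snd)).continuousOn⟩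

theorem hF_snd {q : I × W k₀} (h : wd k₀ q ≠ ∞) : (hF k₀ q).1.2 = Ext.of (retF k₀ q.2) :=
  Ext.cut_of_mem (S := {q | wd k₀ q ≠ ∞}) (κ := fun q => Ext.of (retF k₀ q.2)) h

theorem hF_zero (p : W k₀) : hF k₀ (0, p) = inc k₀ (ret k₀ p) := by
  refine Su.ext ?_ fun h => hF_snd k₀ h
  change dv _ = _
  simp only [ht, Set.Icc.coe_zero, zero_mul, sub_zero, dv_one]
  rfl

theorem hF_one (p : W k₀) : hF k₀ (1, p) = p := by
  rcases Su.cases p with rfl | ⟨e, k, he, rfl⟩
  · refine Su.eq_inf ?_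
    change dv (_, 1 - ((1 : I) : ℝ) * (1 - rho (∞ : OnePoint ℝ))) = _
    simp only [rho_infty, Set.Icc.coe_one, sub_zero, mul_one, sub_self, dv_zero]
  · refine Su.ext ?_ fun h => hF_snd k₀ h
    have e0 : 0 ≤ e := he.1
    have n : ‖e‖ = e := Real.norm_of_nonneg e0
    have p : 0 < 1 + e := by linarith
    have a : ht k₀ (1, Su.mk _ k₀ e k he) = 1 - (1 + e)⁻¹ := by
      change ((1 : I) : ℝ) * (1 - rho (OnePoint.some e)) = _
      rw [rho_coe, n, Set.Icc.coe_one, one_mul]
    change wd k₀ _ = OnePoint.some e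
    rw [wd, a, sub_sub_cancel, dv_of_ne (inv_ne_zero p.ne'), inv_inv]
    congr 1
    change (1 + e) * (1 - (1 + e)⁻¹) = e
    field_simp
    ring

theorem inc_ret : ((inc k₀).comp (ret k₀)).Homotopic (ContinuousMap.id _) :=
  homotopic_of (hF k₀) (continuous_hF k₀) (hF_zero k₀) (hF_one k₀)

theorem ret_inc' : ((ret k₀).comp (inc k₀)).Homotopic (ContinuousMap.id _) :=
  ContinuousMap.Homotopic.refl _

/-- the homotopy equivalence -/
noncomputable def equiv : ContinuousMap.HomotopyEquiv K (W k₀) :=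
  ⟨inc k₀, ret k₀, ret_inc' k₀, inc_ret k₀⟩

theorem whisk : WHISK := fun _ _ k₀ =>
  ⟨ret k₀, inc k₀, rfl, fun _ _ _ => rfl, fun _ => rfl, inc_ret k₀⟩

end Vale.Agent.P263B96
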